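import Vale.Agent.P075.Uniform
import Vale.Agent.P075.Transfer

/-!
The dyadic triangular Hilbert form is bounded at (3,3,3) uniformly in the scales.
-/

namespace Vale.Agent.Results.P075.DyadicUniform

open Vale.Agent.P075

/-- One constant works for every finite set of scales and all coefficients of modulus at most one. -/
theorem result : ∃ C : ℝ, ∀ (S : Finset ℤ) (F0 F1 F2 : ℝ → ℝ → ℝ),
    Adm F0 → Adm F1 → Adm F2 →
      (∀ k : ℤ, Summable fun p : ℕ × ℕ => |LI k p F0 F1 F2|) ∧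
      (∑ k ∈ S, ∑' p : ℕ × ℕ, |LI k p F0 F1 F2| ≤ C * (L3 F0 * L3 F1 * L3 F2)) ∧
      ∀ ε : ℤ → ℝ, (∀ k ∈ S, |ε k| ≤ 1) →
        |∑ k ∈ S, ε k * ∑' p : ℕ × ℕ, LI k p F0 F1 F2| ≤ C * (L3 F0 * L3 F1 * L3 F2) := by
  have hb : DyadicBound (576 * leafC) 0 :=
    dyadicBound_of_finiteBound (mul_nonneg (by norm_num) leafC_nonneg) le_rfl uniform_bound
  refine ⟨576 * leafC, fun S F0 F1 F2 h0 h1 h2 => ?_⟩
  have hb' : ∀ (R : Finset ℤ) (T : Finset (ℕ × ℕ)),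
      ∑ k ∈ R, ∑ p ∈ T, |LI k p F0 F1 F2| ≤ 576 * leafC * (L3 F0 * L3 F1 * L3 F2) := fun R T => by
    simpa using hb R T F0 F1 F2 h0 h1 h2
  have hs : ∀ k : ℤ, Summable fun p : ℕ × ℕ => |LI k p F0 F1 F2| := fun k =>
    summable_of_sum_le (fun p => abs_nonneg _) fun T => by simpa using hb' {k} T
  have habs : ∑ k ∈ S, ∑' p : ℕ × ℕ, |LI k p F0 F1 F2|
      ≤ 576 * leafC * (L3 F0 * L3 F1 * L3 F2) :=
    le_of_tendsto' (tendsto_finsetSum S fun k _ => (hs k).hasSum) fun T => hb' S T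
  refine ⟨hs, habs, fun ε hε => ?_⟩
  refine le_trans ?_ habs
  refine (Finset.abs_sum_le_sum_abs _ _).trans (Finset.sum_le_sum fun k hk => ?_)
  rw [abs_mul]
  refine (mul_le_of_le_one_left (abs_nonneg _) (hε k hk)).trans ?_
  refine abs_le.2 ⟨?_, ?_⟩
  · rw [← tsum_neg]
    exact (hs k).neg.tsum_le_tsum (fun p => neg_abs_le _) (hs k).of_abs
  · exact (hs k).of_abs.tsum_le_tsum (fun p => le_abs_self _) (hs k)

end Vale.Agent.Results.P075.DyadicUniform
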